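import Mathlib
import Vale.Agent.Lib.P069.Defs

namespace Vale.Agent.Lib.P069

/-- A weakly null sequence comes arbitrarily close to any closed subspace of finite codimension. -/
theorem exists_near_of_weakly_null {X : Type*} [NormedAddCommGroup X] [NormedSpace ℝ X]
    (F : Submodule ℝ X) (hF : IsClosed (F : Set X)) (hfd : FiniteDimensional ℝ (X ⧸ F))
    (u : ℕ → X)
    (hu : ∀ φ : StrongDual ℝ X, Filter.Tendsto (fun k => φ (u k)) Filter.atTop (nhds 0))
    (ε : ℝ) (hε : 0 < ε) : ∃ k, ∃ y ∈ F, ‖u k - y‖ < ε := by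
  have : IsClosed (F : Set X) := hF
  have : FiniteDimensional ℝ (X ⧸ F) := hfd
  let e : (X ⧸ F) ≃L[ℝ] (Fin (Module.finrank ℝ (X ⧸ F)) → ℝ) :=
    (Module.finBasis ℝ (X ⧸ F)).equivFunL
  have h1 : Filter.Tendsto (fun k => e (F.mkQL (u k))) Filter.atTop (nhds 0) := by
    rw [tendsto_pi_nhds]
    intro i
    have := hu ((ContinuousLinearMap.proj i).comp
      ((e : (X ⧸ F) →L[ℝ] (Fin (Module.finrank ℝ (X ⧸ F)) → ℝ)).comp F.mkQL))
    simpa using this
  have h2 : Filter.Tendsto (fun k => F.mkQL (u k)) Filter.atTop (nhds 0) := by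
    have h := (e.symm.continuous.tendsto 0).comp h1
    have hfun : (⇑e.symm ∘ fun k => e (F.mkQL (u k))) = fun k => F.mkQL (u k) := by
      funext k
      simp
    rw [hfun, map_zero] at h
    exact h
  have h3 : Filter.Tendsto (fun k => ‖F.mkQL (u k)‖) Filter.atTop (nhds 0) := by
    simpa using h2.norm
  obtain ⟨k, hk⟩ := (h3.eventually (gt_mem_nhds (half_pos hε))).exists
  obtain ⟨m, hm, hm'⟩ := Submodule.Quotient.norm_mk_lt (F.mkQL (u k)) (half_pos hε)
  refine ⟨k, u k - m, ?_, ?_⟩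
  · have h0 : (Submodule.Quotient.mk (u k - m) : X ⧸ F) = 0 := by
      rw [Submodule.Quotient.mk_sub, hm]
      simp
    exact (Submodule.Quotient.mk_eq_zero F).1 h0
  · have : u k - (u k - m) = m := by abel
    rw [this]
    linarith

/-- Trees of height `n` in the unit sphere with weakly null increments of norm at least one,
for every `n`, prevent every equivalent norm from being asymptotically uniformly convex. -/
theorem not_auc_of_trees {X : Type*} [NormedAddCommGroup X] [NormedSpace ℝ X]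
    (h : ∀ n : ℕ, ∃ (z u : List ℕ → X),
      (∀ c : List ℕ, c.length ≤ n → ‖z c‖ ≤ 1) ∧
      (∀ c : List ℕ, c.length ≤ n → 1 ≤ ‖z c‖) ∧
      (∀ (k : ℕ) (c : List ℕ), 1 ≤ ‖u (k :: c)‖) ∧
      (∀ (k : ℕ) (c : List ℕ), c.length < n → z (k :: c) = z c + u (k :: c)) ∧
      (∀ (c : List ℕ) (φ : StrongDual ℝ X),
        Filter.Tendsto (fun k => φ (u (k :: c))) Filter.atTop (nhds 0)))
    (N : Seminorm ℝ X) (hN : ∃ c C : ℝ, 0 < c ∧ ∀ x, c * ‖x‖ ≤ N x ∧ N x ≤ C * ‖x‖) :
    ¬ IsAUC N := by
  intro hauc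
  obtain ⟨c0, C, hc0, hNb⟩ := hN
  have hC : c0 ≤ C := by
    obtain ⟨z, u, hz1, hz2, -⟩ := h 0
    have h1 := hz1 [] (le_refl _)
    have h2 := hz2 [] (le_refl _)
    have hn : ‖z []‖ = 1 := le_antisymm h1 h2
    have h3 := hNb (z [])
    rw [hn] at h3
    linarith [h3.1, h3.2]
  have hCpos : 0 < C := lt_of_lt_of_le hc0 hC
  have ht0pos : 0 < c0 / (2 * C) := by positivity
  obtain ⟨δ, hδ, hF⟩ := hauc (c0 / (2 * C)) ht0pos
  -- the ray lemma
  have ray : ∀ x : X, 0 < N x → ∃ F : Submodule ℝ X, IsClosed (F : Set X) ∧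
      FiniteDimensional ℝ (X ⧸ F) ∧
      ∀ y ∈ F, c0 / (2 * C) * N x ≤ N y → N x * (1 + δ) ≤ N (x + y) := by
    intro x hx
    have hx1 : N ((N x)⁻¹ • x) = 1 := by
      rw [map_smul_eq_mul, Real.norm_eq_abs, abs_of_pos (inv_pos.mpr hx)]
      exact inv_mul_cancel₀ hx.ne'
    obtain ⟨F, hFc, hFd, hFy⟩ := hF _ hx1
    refine ⟨F, hFc, hFd, ?_⟩
    intro y hy hyN
    have hs : 0 < N y := lt_of_lt_of_le (mul_pos ht0pos hx) hyN
    have hy1 : N ((N y)⁻¹ • y) = 1 := by
      rw [map_smul_eq_mul, Real.norm_eq_abs, abs_of_pos (inv_pos.mpr hs)]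
      exact inv_mul_cancel₀ hs.ne'
    have key := hFy _ (F.smul_mem _ hy) hy1
    -- the convex combination
    have hlam_pos : 0 < c0 / (2 * C) * N x / N y := by positivity
    have hlam_le : c0 / (2 * C) * N x / N y ≤ 1 := by
      rw [div_le_one hs]; exact hyN
    have hcomb : (N x)⁻¹ • x + (c0 / (2 * C)) • ((N y)⁻¹ • y)
        = (N x)⁻¹ • ((1 - c0 / (2 * C) * N x / N y) • x
          + (c0 / (2 * C) * N x / N y) • (x + y)) := by
      have hx' : N x ≠ 0 := hx.ne'
      have hs' : N y ≠ 0 := hs.ne'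
      match_scalars <;> field_simp <;> ring
    rw [hcomb, map_smul_eq_mul, Real.norm_eq_abs, abs_of_pos (inv_pos.mpr hx)] at key
    have hconv : N ((1 - c0 / (2 * C) * N x / N y) • x + (c0 / (2 * C) * N x / N y) • (x + y))
        ≤ (1 - c0 / (2 * C) * N x / N y) * N x + (c0 / (2 * C) * N x / N y) * N (x + y) := by
      refine (map_add_le_add N _ _).trans ?_
      rw [map_smul_eq_mul, map_smul_eq_mul, Real.norm_eq_abs, Real.norm_eq_abs,
        abs_of_nonneg (by linarith), abs_of_pos hlam_pos]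
    have key2 : (1 + δ) * N x
        ≤ (1 - c0 / (2 * C) * N x / N y) * N x + (c0 / (2 * C) * N x / N y) * N (x + y) := by
      have h5 : (1 + δ) * N x ≤ N ((1 - c0 / (2 * C) * N x / N y) • x
          + (c0 / (2 * C) * N x / N y) • (x + y)) := by
        have h6 := mul_le_mul_of_nonneg_left key hx.le
        rw [← mul_assoc, mul_inv_cancel₀ hx.ne', one_mul] at h6
        linarith
      exact h5.trans hconv
    by_contra hcon0
    have hcon := not_le.mp hcon0
    generalize c0 / (2 * C) * N x / N y = lam at hlam_pos hlam_le key2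
    have h7 : lam * N (x + y) < lam * (N x * (1 + δ)) := mul_lt_mul_of_pos_left hcon hlam_pos
    have h8 : lam * (N x * δ) ≤ 1 * (N x * δ) :=
      mul_le_mul_of_nonneg_right hlam_le (by positivity)
    nlinarith
  -- choose the height
  obtain ⟨n, hn⟩ : ∃ n : ℕ, C / c0 < (1 + δ / 2) ^ n :=
    pow_unbounded_of_one_lt _ (by linarith)
  obtain ⟨z, u, hz1, hz2, hu1, hzu, hwn⟩ := h n
  have step : ∀ i : ℕ, i ≤ n → ∃ c : List ℕ, c.length = i ∧ c0 * (1 + δ / 2) ^ i ≤ N (z c) := by
    intro i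
    induction i with
    | zero =>
      intro _
      refine ⟨[], rfl, ?_⟩
      have h1 := hz2 [] (Nat.zero_le _)
      have h2 := (hNb (z [])).1
      simp only [pow_zero, mul_one]
      nlinarith
    | succ i ih =>
      intro hi
      obtain ⟨c, hcl, hcN⟩ := ih (Nat.le_of_succ_le hi)
      have hpow : (1 : ℝ) ≤ (1 + δ / 2) ^ i := one_le_pow₀ (by linarith)
      have hr_lb : c0 ≤ N (z c) := by nlinarith
      have hr_pos : 0 < N (z c) := lt_of_lt_of_le hc0 hr_lb
      have hr_ub : N (z c) ≤ C := by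
        have h1 := hz1 c (by omega)
        have h2 := (hNb (z c)).2
        nlinarith
      obtain ⟨F, hFc, hFd, hFy⟩ := ray (z c) hr_pos
      have hεpos : 0 < min (c0 / (2 * C)) (c0 * δ / (2 * C)) := by
        apply lt_min <;> positivity
      obtain ⟨k, y, hyF, hky⟩ := exists_near_of_weakly_null F hFc hFd (fun k => u (k :: c))
        (hwn c) _ hεpos
      have hd : N (u (k :: c) - y) ≤ C * min (c0 / (2 * C)) (c0 * δ / (2 * C)) := by
        have h2 := (hNb (u (k :: c) - y)).2
        have h3 : C * ‖u (k :: c) - y‖ ≤ C * min (c0 / (2 * C)) (c0 * δ / (2 * C)) :=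
          mul_le_mul_of_nonneg_left hky.le hCpos.le
        linarith
      have hd1 : N (u (k :: c) - y) ≤ c0 / 2 := by
        have h4 : C * min (c0 / (2 * C)) (c0 * δ / (2 * C)) ≤ C * (c0 / (2 * C)) :=
          mul_le_mul_of_nonneg_left (min_le_left _ _) hCpos.le
        have h5 : C * (c0 / (2 * C)) = c0 / 2 := by field_simp
        linarith
      have hd2 : N (u (k :: c) - y) ≤ c0 * δ / 2 := by
        have h4 : C * min (c0 / (2 * C)) (c0 * δ / (2 * C)) ≤ C * (c0 * δ / (2 * C)) :=
          mul_le_mul_of_nonneg_left (min_le_right _ _) hCpos.le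
        have h5 : C * (c0 * δ / (2 * C)) = c0 * δ / 2 := by field_simp
        linarith
      have hu_lb : c0 ≤ N (u (k :: c)) := by
        have h1 := hu1 k c
        have h2 := (hNb (u (k :: c))).1
        nlinarith
      have hy_lb : c0 / 2 ≤ N y := by
        have h1 : N (u (k :: c)) ≤ N y + N (u (k :: c) - y) := by
          have h2 := map_add_le_add N y (u (k :: c) - y)
          have h3 : y + (u (k :: c) - y) = u (k :: c) := by abel
          rw [h3] at h2
          exact h2
        linarith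
      have hy_t0 : c0 / (2 * C) * N (z c) ≤ N y := by
        have h1 : c0 / (2 * C) * N (z c) ≤ c0 / (2 * C) * C :=
          mul_le_mul_of_nonneg_left hr_ub ht0pos.le
        have h2 : c0 / (2 * C) * C = c0 / 2 := by field_simp
        linarith
      have key := hFy y hyF hy_t0
      have hz_eq : z (k :: c) = z c + u (k :: c) := hzu k c (by omega)
      have h9 : N (z c + y) ≤ N (z (k :: c)) + N (u (k :: c) - y) := by
        have h2 := map_sub_le_add N (z (k :: c)) (u (k :: c) - y)
        have h3 : z (k :: c) - (u (k :: c) - y) = z c + y := by rw [hz_eq]; abel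
        rw [h3] at h2
        exact h2
      refine ⟨k :: c, by simp [hcl], ?_⟩
      have h10 : N (z c) * (1 + δ / 2) ≤ N (z (k :: c)) := by nlinarith
      have h11 : c0 * (1 + δ / 2) ^ (i + 1) = c0 * (1 + δ / 2) ^ i * (1 + δ / 2) := by ring
      rw [h11]
      have h12 : c0 * (1 + δ / 2) ^ i * (1 + δ / 2) ≤ N (z c) * (1 + δ / 2) :=
        mul_le_mul_of_nonneg_right hcN (by linarith)
      linarith
  obtain ⟨c, hcl, hcN⟩ := step n le_rfl
  have hub : N (z c) ≤ C := by
    have h1 := hz1 c (by omega)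
    have h2 := (hNb (z c)).2
    nlinarith
  have h13 : (1 + δ / 2) ^ n ≤ C / c0 := by
    rw [le_div_iff₀ hc0]
    linarith
  linarith

end Vale.Agent.Lib.P069
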