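import Mathlib
import Vale.Agent.Lib.P069.Coord

open scoped ENNReal

namespace Vale.Agent.Lib.P069

/-- A countable `l2`-sum of separable normed spaces is separable. -/
theorem lp_two_separable {ι : Type*} [Countable ι] (E : ι → Type*) [∀ i, NormedAddCommGroup (E i)]
    [∀ i, NormedSpace ℝ (E i)] [∀ i, TopologicalSpace.SeparableSpace (E i)] :
    TopologicalSpace.SeparableSpace (lp E 2) := by
  classical
  have hfact : Fact ((1 : ℝ≥0∞) ≤ 2) := ⟨by norm_num⟩
  rw [← TopologicalSpace.isSeparable_univ_iff]
  have hS : TopologicalSpace.IsSeparable (⋃ i, Set.range (lp.single (E := E) 2 i)) :=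
    TopologicalSpace.IsSeparable.iUnion
      (fun i => TopologicalSpace.isSeparable_range (lp.isometry_single i).continuous)
  have hT : TopologicalSpace.IsSeparable
      (closure (Submodule.span ℝ (⋃ i, Set.range (lp.single (E := E) 2 i)) : Set (lp E 2))) :=
    (hS.span (R := ℝ)).closure
  refine hT.mono ?_
  intro f _
  have hsum := lp.hasSum_single (p := 2) (by norm_num) f
  refine mem_closure_of_tendsto hsum (Filter.Eventually.of_forall ?_)
  intro s
  exact Submodule.sum_mem _
    (fun i _ => Submodule.subset_span (Set.mem_iUnion.mpr ⟨i, Set.mem_range_self _⟩))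

/-- The `l2`-sum of the dual spaces `X n` is separable, once each `X n` is known to be
isomorphic to `l2` of the tree. -/
theorem X_sum_separable (hX : ∀ n : ℕ, Nonempty (X n ≃L[ℝ] lp (fun _ : List ℕ => ℝ) 2)) :
    TopologicalSpace.SeparableSpace (lp (fun m : ℕ => X m) 2) := by
  have h2 : TopologicalSpace.SeparableSpace (lp (fun _ : List ℕ => ℝ) 2) :=
    lp_two_separable (fun _ : List ℕ => ℝ)
  have hXn : ∀ n : ℕ, TopologicalSpace.SeparableSpace (X n) := by
    intro n
    obtain ⟨e⟩ := hX n
    exact e.symm.surjective.denseRange.separableSpace e.symm.continuous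
  exact lp_two_separable (fun m : ℕ => X m)

end Vale.Agent.Lib.P069
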